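import Vale.Agent.P216.N929.Om2
import Vale.Agent.P239.Bdl.B12

/-!
# P260, block [A] (manifold side): definitions

Group cochains are functions on lists of group elements, invariant under left translations.
`Cov p`: `p : X → M` is the quotient map of a proper free cocompact isometric action.
-/

open Set

namespace Vale.Agent.P260.A

open Vale.Agent.P216.Sl Vale.Agent.P216.PS

section Group

variable {k : Type} [Field k] {G : Type} [Group G]

/-- The function on lists is invariant under left translations. -/
def Inv (f : List G → k) : Prop := ∀ (g : G) (l : List G), f (l.map (g * ·)) = f l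

/-- `f` is an invariant cocycle of degree `i`. -/
def CocG (i : ℕ) (f : List G → k) : Prop :=
  Inv f ∧ ∀ l : List G, l.length = i + 2 → dl f l = 0

/-- `f` is the coboundary of an invariant function in degree `i` (zero if `i = 0`). -/
def ExG (i : ℕ) (f : List G → k) : Prop :=
  ∃ h : List G → k, (i = 0 → ∀ l, h l = 0) ∧ Inv h ∧ ∀ l : List G, l.length = i + 1 → f l = dl h l

end Group

/-- `p : X → M` is the quotient map of a proper, free, cocompact action of `G` by isometries. -/
structure Cov {X M : Type} [MetricSpace X] [MetricSpace M] (G : Type) [Group G] [MulAction G X]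
    (p : X → M) : Prop where
  iso : ∀ (g : G) (x y : X), dist (g • x) (g • y) = dist x y
  surj : Function.Surjective p
  fib : ∀ x y : X, p x = p y ↔ ∃ g : G, y = g • x
  inj : ∃ ρ > 0, ∀ (g : G) (x : X), dist x (g • x) < ρ → g = 1
  uc : ∀ ε > 0, ∃ δ > 0, ∀ x y : X, dist x y < δ → dist (p x) (p y) < ε
  uo : ∀ ε > 0, ∃ δ > 0, ∀ (x : X) (m : M), dist (p x) m < δ → ∃ x', p x' = m ∧ dist x x' < ε
  act : Vale.Agent.P239.M.CoAct G X

end Vale.Agent.P260.A
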