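import Vale.Agent.P260.H20.Cover
import Mathlib.Topology.UrysohnsLemma

set_option linter.all false

/-!
# P260, block [A0]: an invariant metric on the covering space
-/

open Set Filter Topology

namespace Vale.Agent.P260.A

section Dist

variable {X G : Type} [Group G] [MulAction G X] (d : X → X → ℝ) (F : X → ℝ)

/-- truncated distance -/
noncomputable def tm (x y : X) : ℝ := min 1 (d x y)

/-- The family of functions which defines the metric. -/
noncomputable def fam (i : G × Option X) (x : X) : ℝ :=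
  match i.2 with
  | none => F (i.1 • x)
  | some z => F (i.1 • x) * tm d (i.1 • x) z

/-- The invariant distance. -/
noncomputable def dd (G : Type) [Group G] [MulAction G X] (x y : X) : ℝ :=
  ⨆ i : G × Option X, |fam d F i x - fam d F i y|

variable {d F}

theorem fam_nonneg (hF0 : ∀ x, 0 ≤ F x) (hd : ∀ x y, 0 ≤ d x y) (i : G × Option X) (x : X) :
    0 ≤ fam d F i x := by
  obtain ⟨g, z | z⟩ := i
  · exact hF0 _
  · exact mul_nonneg (hF0 _) (le_min zero_le_one (hd _ _))

theorem fam_le (_hF0 : ∀ x, 0 ≤ F x) (hF1 : ∀ x, F x ≤ 1) (hd : ∀ x y, 0 ≤ d x y)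
    (i : G × Option X) (x : X) : fam d F i x ≤ 1 := by
  obtain ⟨g, z | z⟩ := i
  · exact hF1 _
  · exact mul_le_one₀ (hF1 _) (le_min zero_le_one (hd _ _)) (min_le_left _ _)

theorem abs_le_one (hF0 : ∀ x, 0 ≤ F x) (hF1 : ∀ x, F x ≤ 1) (hd : ∀ x y, 0 ≤ d x y)
    (i : G × Option X) (x y : X) : |fam d F i x - fam d F i y| ≤ 1 := by
  rw [abs_le]
  constructor
  · linarith [fam_nonneg hF0 hd i x, fam_le hF0 hF1 hd i y]
  · linarith [fam_nonneg hF0 hd i y, fam_le hF0 hF1 hd i x]

theorem bdd (hF0 : ∀ x, 0 ≤ F x) (hF1 : ∀ x, F x ≤ 1) (hd : ∀ x y, 0 ≤ d x y) (x y : X) :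
    BddAbove (range fun i : G × Option X => |fam d F i x - fam d F i y|) :=
  ⟨1, by rintro _ ⟨i, rfl⟩; exact abs_le_one hF0 hF1 hd i x y⟩

theorem le_dd (hF0 : ∀ x, 0 ≤ F x) (hF1 : ∀ x, F x ≤ 1) (hd : ∀ x y, 0 ≤ d x y) (x y : X)
    (i : G × Option X) : |fam d F i x - fam d F i y| ≤ dd d F G x y :=
  le_ciSup (bdd hF0 hF1 hd x y) i

theorem dd_le {x y : X} {C : ℝ} (h : ∀ i : G × Option X, |fam d F i x - fam d F i y| ≤ C) :
    dd d F G x y ≤ C := ciSup_le h

theorem dd_self (x : X) : dd d F G x x = 0 := by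
  simp [dd]

theorem dd_comm (x y : X) : dd d F G x y = dd d F G y x := by
  simp only [dd, abs_sub_comm]

theorem dd_tri (hF0 : ∀ x, 0 ≤ F x) (hF1 : ∀ x, F x ≤ 1) (hd : ∀ x y, 0 ≤ d x y) (x y z : X) :
    dd d F G x z ≤ dd d F G x y + dd d F G y z :=
  dd_le fun i => (abs_sub_le _ (fam d F i y) _).trans
    (add_le_add (le_dd hF0 hF1 hd x y i) (le_dd hF0 hF1 hd y z i))

theorem fam_smul (g : G) (i : G × Option X) (x : X) :
    fam d F i (g • x) = fam d F (i.1 * g, i.2) x := by
  obtain ⟨h, z | z⟩ := i <;> simp only [fam, mul_smul]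

theorem dd_smul (hF0 : ∀ x, 0 ≤ F x) (hF1 : ∀ x, F x ≤ 1) (hd : ∀ x y, 0 ≤ d x y) (g : G)
    (x y : X) : dd d F G (g • x) (g • y) = dd d F G x y := by
  have key : ∀ (g : G) (x y : X), dd d F G (g • x) (g • y) ≤ dd d F G x y := fun g x y =>
    dd_le fun i => by
      rw [fam_smul, fam_smul]
      exact le_dd hF0 hF1 hd x y _
  refine le_antisymm (key g x y) ?_
  have := key g⁻¹ (g • x) (g • y)
  rwa [inv_smul_smul, inv_smul_smul] at this

end Dist

section Metric

variable {X G : Type} [MetricSpace X] [Group G] [MulAction G X]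

theorem tm_lip (x y z : X) : |tm dist x z - tm dist y z| ≤ dist x y := by
  have h1 := abs_dist_sub_le x y z
  have h2 : |min 1 (dist x z) - min 1 (dist y z)| ≤ |dist x z - dist y z| := by
    have := abs_min_sub_min_le_max (1 : ℝ) (dist x z) 1 (dist y z)
    simpa using this
  exact h2.trans h1

/-- Continuity of the new distance. -/
theorem dd_small (hact : Vale.Agent.P239.M.CoAct G X) [LocallyCompactSpace X] {F : X → ℝ}
    (hF0 : ∀ x, 0 ≤ F x) (hF1 : ∀ x, F x ≤ 1) (hFc : Continuous F) (hFs : HasCompactSupport F)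
    (x : X) {ε : ℝ} (hε : 0 < ε) : ∀ᶠ y in 𝓝 x, dd dist F G x y < ε := by
  obtain ⟨K, hK, hKx⟩ := exists_compact_mem_nhds x
  have hfin := hact.proper K (tsupport F) hK hFs
  have h0 : ∀ g : G, g ∉ hfin.toFinset → ∀ y ∈ K, F (g • y) = 0 := by
    intro g hg y hy
    by_contra hcon
    apply hg
    rw [Set.Finite.mem_toFinset]
    exact ⟨y, hy, subset_tsupport _ hcon⟩
  have h1 : ∀ᶠ y in 𝓝 x, ∀ g ∈ hfin.toFinset, |F (g • x) - F (g • y)| < ε / 4 ∧
      dist (g • x) (g • y) < ε / 4 := by
    rw [Filter.eventually_all_finset]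
    intro g _
    have c1 : Tendsto (fun y : X => F (g • y)) (𝓝 x) (𝓝 (F (g • x))) :=
      (hFc.comp (hact.cont g)).continuousAt
    have c2 : Tendsto (fun y : X => g • y) (𝓝 x) (𝓝 (g • x)) := (hact.cont g).continuousAt
    have e1 := (Metric.tendsto_nhds.1 c1) (ε / 4) (by positivity)
    have e2 := (Metric.tendsto_nhds.1 c2) (ε / 4) (by positivity)
    filter_upwards [e1, e2] with y h1 h2
    refine ⟨?_, ?_⟩
    · rw [Real.dist_eq] at h1
      rwa [abs_sub_comm]
    · rwa [dist_comm]
  filter_upwards [h1, hKx] with y hy hyK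
  have hxK : x ∈ K := mem_of_mem_nhds hKx
  have key : ∀ i : G × Option X, |fam dist F i x - fam dist F i y| ≤ ε / 2 := by
    rintro ⟨g, z⟩
    by_cases hg : g ∈ hfin.toFinset
    · obtain ⟨h1, h2⟩ := hy g hg
      rcases z with _ | z
      · exact h1.le.trans (by linarith)
      · have e : fam dist F (g, some z) x - fam dist F (g, some z) y =
            (F (g • x) - F (g • y)) * tm dist (g • x) z +
              F (g • y) * (tm dist (g • x) z - tm dist (g • y) z) := by
          simp only [fam]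
          ring
        rw [e]
        refine (abs_add_le _ _).trans ?_
        rw [abs_mul, abs_mul]
        have t0 : 0 ≤ tm dist (g • x) z := le_min zero_le_one dist_nonneg
        have t1 : tm dist (g • x) z ≤ 1 := min_le_left _ _
        have h3 := tm_lip (g • x) (g • y) z
        rw [abs_of_nonneg t0, abs_of_nonneg (hF0 _)]
        have a1 : |F (g • x) - F (g • y)| * tm dist (g • x) z ≤ ε / 4 := by
          calc _ ≤ |F (g • x) - F (g • y)| * 1 := by gcongr
            _ ≤ ε / 4 := by rw [mul_one]; exact h1.le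
        have a2 : F (g • y) * |tm dist (g • x) z - tm dist (g • y) z| ≤ ε / 4 := by
          calc _ ≤ 1 * |tm dist (g • x) z - tm dist (g • y) z| := by
                gcongr
                exact hF1 _
            _ ≤ ε / 4 := by rw [one_mul]; exact h3.trans h2.le
        linarith
    · have e1 := h0 g hg x hxK
      have e2 := h0 g hg y hyK
      rcases z with _ | z
      · simp only [fam, e1, e2, sub_self, abs_zero]
        positivity
      · simp only [fam, e1, e2, zero_mul, sub_self, abs_zero]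
        positivity
  exact (dd_le key).trans_lt (by linarith)

/-- Points which are close for the new distance are close. -/
theorem of_dd_small (hact : Vale.Agent.P239.M.CoAct G X) {F : X → ℝ}
    (hF0 : ∀ x, 0 ≤ F x) (hF1 : ∀ x, F x ≤ 1) {B : Set X} (hB : ∀ x ∈ B, F x = 1)
    (hcov : ∀ x : X, ∃ g : G, ∃ y ∈ B, x = g • y)
    (x : X) {U : Set X} (hU : U ∈ 𝓝 x) : ∃ ε > 0, ∀ y, dd dist F G x y < ε → y ∈ U := by
  obtain ⟨g, b, hb, rfl⟩ := hcov x
  have h1 := (hact.cont g).continuousAt (x := b) hU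
  obtain ⟨r, hr, hrU⟩ := Metric.mem_nhds_iff.1 h1
  refine ⟨min (1 / 2) (min 1 r / 2), lt_min (by norm_num) (by positivity), fun y hy => ?_⟩
  have i1 := (le_dd (G := G) hF0 hF1 (fun x y => dist_nonneg) (g • b) y (g⁻¹, none)).trans_lt hy
  have i2 := (le_dd (G := G) hF0 hF1 (fun x y => dist_nonneg) (g • b) y (g⁻¹, some b)).trans_lt hy
  simp only [fam, inv_smul_smul, hB b hb, tm, dist_self] at i1 i2
  rw [min_eq_right (zero_le_one), mul_zero, zero_sub, abs_neg,
    abs_of_nonneg (mul_nonneg (hF0 _) (le_min zero_le_one dist_nonneg))] at i2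
  have i3 : 1 / 2 < F (g⁻¹ • y) := by
    have := (abs_lt.1 (i1.trans_le (min_le_left _ _))).2
    linarith
  have i4 : min 1 (dist (g⁻¹ • y) b) < min 1 r := by
    by_contra hcon
    rw [not_lt] at hcon
    have h2 : 0 < min 1 r := by positivity
    have h3 : (1 / 2) * min 1 r ≤ F (g⁻¹ • y) * min 1 (dist (g⁻¹ • y) b) := by gcongr
    have h4 := i2.trans_le (min_le_right _ _)
    linarith
  have i5 : dist (g⁻¹ • y) b < r := by
    rcases le_or_gt 1 (dist (g⁻¹ • y) b) with h | h
    · rw [min_eq_left h] at i4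
      exact absurd i4 (not_lt.2 (min_le_left _ _))
    · rw [min_eq_right h.le] at i4
      exact i4.trans_le (min_le_right _ _)
  have := hrU (Metric.mem_ball.2 i5)
  rw [mem_preimage, smul_inv_smul] at this
  exact this

end Metric


section Cover

variable {X G : Type} [tX : TopologicalSpace X] [Group G] [MulAction G X]

/-- **An invariant metric.** -/
theorem exists_inv_metric [TopologicalSpace.MetrizableSpace X] [LocallyCompactSpace X]
    (hc : ∀ g : G, Continuous fun x : X => g • x)
    (hpr : ∀ C D : Set X, IsCompact C → IsCompact D → {g : G | ∃ y ∈ C, g • y ∈ D}.Finite)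
    (hco : ∃ B : Set X, IsCompact B ∧ ∀ x : X, ∃ g : G, ∃ y ∈ B, x = g • y)
    (hfree : ∀ (g : G) (x : X), g • x = x → g = 1) :
    ∃ m : MetricSpace X, m.toUniformSpace.toTopologicalSpace = tX ∧
      ∀ (g : G) (x y : X), m.dist (g • x) (g • y) = m.dist x y := by
  letI m0 : MetricSpace X := TopologicalSpace.metrizableSpaceMetric X
  have hact : Vale.Agent.P239.M.CoAct G X := ⟨hc, hfree, hco, hpr⟩
  obtain ⟨B, hB, hcov⟩ := hco
  obtain ⟨F, hF1, -, hFs, hF⟩ := exists_continuous_one_zero_of_isCompact hB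
    (isClosed_empty (X := X)) (disjoint_empty B)
  have F0 : ∀ x, 0 ≤ F x := fun x => (hF x).1
  have F1 : ∀ x, F x ≤ 1 := fun x => (hF x).2
  have hd : ∀ x y : X, 0 ≤ dist x y := fun x y => dist_nonneg
  have hU : ∀ (x : X) (U : Set X), U ∈ 𝓝 x → ∃ ε > 0, ∀ y, dd dist F G x y < ε → y ∈ U :=
    fun x U hU => of_dd_small hact F0 F1 (fun x hx => hF1 hx) hcov x hU
  refine ⟨MetricSpace.ofDistTopology (dd dist F G) dd_self dd_comm (dd_tri F0 F1 hd) ?_ ?_, rfl,
    fun g x y => dd_smul F0 F1 hd g x y⟩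
  · intro s
    rw [isOpen_iff_mem_nhds]
    refine forall₂_congr fun x _ => ⟨fun h => hU x s h, ?_⟩
    rintro ⟨ε, hε, h⟩
    filter_upwards [dd_small hact F0 F1 F.continuous hFs x hε] with y hy
    exact h y hy
  · intro x y hxy
    by_contra hne
    obtain ⟨ε, hε, h⟩ := hU x {y}ᶜ (isOpen_compl_singleton.mem_nhds hne)
    exact h y (by rw [hxy]; exact hε) rfl

end Cover

section Cov

/-- uniformity on a compact set -/
theorem unif {X : Type} [TopologicalSpace X] {B : Set X} (hB : IsCompact B) (P : X → ℝ → Prop)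
    (hP : ∀ x δ δ', δ' ≤ δ → P x δ → P x δ')
    (h : ∀ b ∈ B, ∃ δ > 0, ∀ᶠ x in 𝓝 b, P x δ) : ∃ δ > 0, ∀ x ∈ B, P x δ := by
  choose! f hf0 hf using h
  obtain ⟨t, ht, hcov⟩ := hB.elim_nhds_subcover (fun b => {x | P x (f b)}) fun b hb => hf b hb
  have : ∃ δ > 0, ∀ b ∈ t, δ ≤ f b := by
    clear hcov
    classical
    induction t using Finset.induction_on with
    | empty => exact ⟨1, one_pos, by simp⟩
    | insert b t hb ih =>
      obtain ⟨δ, hδ, h⟩ := ih fun b hb => ht b (Finset.mem_insert_of_mem hb)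
      refine ⟨min δ (f b), lt_min hδ (hf0 b (ht b (Finset.mem_insert_self _ _))), ?_⟩
      intro c hc
      rcases Finset.mem_insert.1 hc with rfl | hc
      · exact min_le_right _ _
      · exact (min_le_left _ _).trans (h c hc)
  obtain ⟨δ, hδ, h⟩ := this
  refine ⟨δ, hδ, fun x hx => ?_⟩
  obtain ⟨b, hb, hxb⟩ := mem_iUnion₂.1 (hcov hx)
  exact hP x _ _ (h b hb) hxb

variable {X M G : Type} [Group G]

/-- The covering data from an invariant metric. -/
theorem cov_of_inv [MetricSpace X] [MetricSpace M] [MulAction G X] {p : X → M}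
    (hp : IsQuotientCoveringMap p G) (hact : Vale.Agent.P239.M.CoAct G X)
    (hiso : ∀ (g : G) (x y : X), dist (g • x) (g • y) = dist x y) : Cov G p := by
  obtain ⟨B, hB, hcov⟩ := hact.cocomp
  have hpg : ∀ (g : G) (x : X), p (g • x) = p x := fun g x => hp.map_smul g
  have hinv : ∀ (g : G) (x y : X), dist x (g • y) = dist (g⁻¹ • x) y := fun g x y => by
    rw [← hiso g (g⁻¹ • x) y, smul_inv_smul]
  refine ⟨hiso, hp.surjective, fun x y => ?_, ?_, ?_, ?_, hact⟩
  · rw [eq_comm, hp.apply_eq_iff_mem_orbit, MulAction.mem_orbit_iff]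
    exact ⟨fun ⟨g, h⟩ => ⟨g, h.symm⟩, fun ⟨g, h⟩ => ⟨g, h.symm⟩⟩
  · obtain ⟨δ, hδ, h⟩ := unif hB (fun x δ => ∀ g : G, dist x (g • x) < δ → g = 1)
      (fun x δ δ' h1 h2 g hg => h2 g (hg.trans_le h1)) fun b _ => by
        obtain ⟨U, hU, hU'⟩ := hp.disjoint b
        obtain ⟨r, hr, hrU⟩ := Metric.mem_nhds_iff.1 hU
        refine ⟨r / 2, by positivity, ?_⟩
        filter_upwards [Metric.ball_mem_nhds b (show 0 < r / 2 by positivity)] with x hx g hg
        rw [Metric.mem_ball] at hx
        refine hU' g ⟨g • x, ⟨x, hrU ?_, rfl⟩, hrU ?_⟩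
        · rw [Metric.mem_ball]; linarith
        · rw [Metric.mem_ball]
          have := dist_triangle_left (g • x) b x
          linarith
    refine ⟨δ, hδ, fun g x hx => ?_⟩
    obtain ⟨a, y, hy, rfl⟩ := hcov x
    have h1 := h y hy (a⁻¹ * g * a) (by
      rw [← hiso a, smul_smul]
      have : a * (a⁻¹ * g * a) = g * a := by group
      rw [this, mul_smul]
      exact hx)
    have : g = a * (a⁻¹ * g * a) * a⁻¹ := by group
    rw [this, h1]
    group
  · intro ε hε
    obtain ⟨δ, hδ, h⟩ := unif hB (fun x δ => ∀ y : X, dist x y < δ → dist (p x) (p y) < ε)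
      (fun x δ δ' h1 h2 y hy => h2 y (hy.trans_le h1)) fun b _ => by
        have hc := hp.continuous.continuousAt (x := b)
        obtain ⟨r, hr, h⟩ := Metric.continuousAt_iff.1 hc (ε / 2) (by positivity)
        refine ⟨r / 2, by positivity, ?_⟩
        filter_upwards [Metric.ball_mem_nhds b (show 0 < r / 2 by positivity)] with x hx y hy
        rw [Metric.mem_ball] at hx
        have h1 := h (x := x) (by linarith)
        have h2 := h (x := y) (by
          have := dist_triangle_left y b x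
          linarith)
        have := dist_triangle_right (p x) (p y) (p b)
        linarith
    refine ⟨δ, hδ, fun x y hxy => ?_⟩
    obtain ⟨g, b, hb, rfl⟩ := hcov x
    have := h b hb (g⁻¹ • y) (by rw [← hiso g, smul_inv_smul]; exact hxy)
    rw [hpg] at this ⊢
    exact this
  · intro ε hε
    obtain ⟨δ, hδ, h⟩ := unif hB (fun x δ => ∀ m : M, dist (p x) m < δ → ∃ x', p x' = m ∧
      dist x x' < ε) (fun x δ δ' h1 h2 m hm => h2 m (hm.trans_le h1)) fun b _ => by
        have hop : IsOpenMap p := hp.isCoveringMap.isOpenMap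
        have h1 : p '' Metric.ball b (ε / 2) ∈ 𝓝 (p b) :=
          hop.image_mem_nhds (Metric.ball_mem_nhds b (by positivity))
        obtain ⟨s, hs, hs'⟩ := Metric.mem_nhds_iff.1 h1
        refine ⟨s / 2, by positivity, ?_⟩
        have hc := hp.continuous.continuousAt (x := b)
        filter_upwards [Metric.ball_mem_nhds b (show 0 < ε / 2 by positivity),
          hc (Metric.ball_mem_nhds (p b) (show 0 < s / 2 by positivity))] with x hx hx' m hm
        rw [Metric.mem_ball] at hx
        rw [mem_preimage, Metric.mem_ball] at hx'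
        obtain ⟨x', h1, h2⟩ := hs' (show m ∈ Metric.ball (p b) s by
          rw [Metric.mem_ball]
          have := dist_triangle_left m (p b) (p x)
          linarith)
        rw [Metric.mem_ball] at h1
        refine ⟨x', h2, ?_⟩
        have := dist_triangle_right x x' b
        linarith
    refine ⟨δ, hδ, fun x m hxm => ?_⟩
    obtain ⟨g, b, hb, rfl⟩ := hcov x
    rw [hpg] at hxm
    obtain ⟨x', h1, h2⟩ := h b hb m hxm
    refine ⟨g • x', by rw [hpg, h1], ?_⟩
    rw [hiso]
    exact h2

/-- **[A0]** -/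
theorem exists_cov {M X G : Type} [MetricSpace M] [CompactSpace M] [tX : TopologicalSpace X]
    [ContractibleSpace X] [Group G] [MulAction G X] {p : X → M}
    (hp : IsQuotientCoveringMap p G) :
    ∃ m : MetricSpace X, m.toUniformSpace.toTopologicalSpace = tX ∧ @Cov X M m _ G _ _ p := by
  have hm : TopologicalSpace.MetrizableSpace X := metrizable_of_cover hp
  have hl : LocallyCompactSpace X := Vale.Agent.P239.locallyCompact_of_cover hp
  have h1 : Vale.Agent.P239.M.CoAct G X := coAct_of_cover hp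
  obtain ⟨m, hmt, hiso⟩ := exists_inv_metric h1.cont h1.proper h1.cocomp h1.free
  subst hmt
  exact ⟨m, rfl, cov_of_inv hp h1 hiso⟩

end Cov

end Vale.Agent.P260.A
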