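import Vale.Agent.P260.H553.A4
import Vale.Agent.P260.H388.A7

/-!
# P260, block [A4] : the monodromy character

`exists_chi`, `chi_mfd`: the subgroup of [A4] is the kernel of a homomorphism to `kˣ`. The proof of
`exists_chi` is the one of `H553.exists_Hp`, with this stronger conclusion.
-/

set_option linter.all false

open Set Filter Topology

namespace Vale.Agent.P260.A

open Vale.Agent.P260.H553

open Vale.Agent.P216 Vale.Agent.P216.Ch2
open Vale.Agent.P216.D246 Vale.Agent.P216.Ch2.D246 Vale.Agent.P216.Ch2.D246.Cub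

open Vale.Agent.P216.AS Vale.Agent.P216.Ch2.AS Vale.Agent.P216.H901 Vale.Agent.P216.Ch2.H901 Vale.Agent.P216.H83 Vale.Agent.P216.Ch2.H83 Vale.Agent.P216.Sl Vale.Agent.P216.PS Vale.Agent.P216.H133C Vale.Agent.P216.Ch2.H133C Vale.Agent.P216.C313 Vale.Agent.P216.Ch2.C313

variable {M X Γ : Type} [MetricSpace M] [CompactSpace M] [TopologicalSpace X] [Group Γ]
  [MulAction Γ X] {n : ℕ} {k : Type} [Field k] {p : X → M}

/-- The form of [A4] with the monodromy homomorphism. -/
theorem exists_chi [SimplyConnectedSpace X] [LocallyPathConnectedSpace X] (hn : 1 ≤ n)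
    (lc : LocEuc M n) (hp : IsQuotientCoveringMap p Γ) :
    ∃ χ : Γ →* kˣ, ∀ H ≤ χ.ker, ∀ (N : Type) [MetricSpace N] [CompactSpace N]
      (r : X → N), IsQuotientCoveringMap r H →
      ∃ w : List N → k, Nrm w ∧ CocL (univ : Set N) n w ∧ ¬ ExL (univ : Set N) n w := by
  classical
  obtain ⟨e⟩ := cube_equiv (k := k) (ok k) n
  haveI : ContinuousConstSMul Γ X := hp.toContinuousConstSMul
  have h2 : Ok k := ok k
  obtain ⟨σ, hσ⟩ := exists_sg e h2 lc hp.continuous
  have hpG : ∀ (g : Γ) (x : X), p (g • x) = p x := fun g x => hp.map_smul g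
  obtain ⟨χ, hχ⟩ := hσ.mono lc hp.continuous hpG
  refine ⟨χ, fun H hH N _ _ r hr => ?_⟩
  -- the map `N → M`
  obtain ⟨sec, hsec⟩ := hr.surjective.hasRightInverse
  let π : N → M := fun y => p (sec y)
  have hsx : ∀ x : X, ∃ h : Γ, h ∈ H ∧ h • x = sec (r x) := by
    intro x
    obtain ⟨h, hh⟩ := hr.apply_eq_iff_mem_orbit.1 (hsec (r x))
    exact ⟨h, h.2, hh⟩
  have hπ : ∀ x, π (r x) = p x := by
    intro x
    obtain ⟨h, -, hh⟩ := hsx x
    change p (sec (r x)) = p x
    rw [← hh, hpG]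
  have hinv : ∀ (c : Cub M n) (x : X), p x ∈ UU c → σ c (sec (r x)) = σ c x := by
    intro c x hx
    obtain ⟨h, hh, hh'⟩ := hsx x
    have h3 := hχ h c x hx
    have h4 : χ h = 1 := hH hh
    rw [h4, one_mul] at h3
    rw [← hh', h3]
  have hrl : IsLocalHomeomorph r := hr.isCoveringMap.isLocalHomeomorph
  have hpl : IsLocalHomeomorph p := hp.isCoveringMap.isLocalHomeomorph
  have locN : LocP (M := N) (n := n) fun d => ∃ c, Over π d c := by
    intro b
    obtain ⟨e1, h1, h1'⟩ := hrl (sec b)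
    obtain ⟨e2, h3, h3'⟩ := hpl (sec b)
    have hb1 : e1 (sec b) = b := by rw [← h1']; exact hsec b
    have hbs : e1.symm b = sec b := by
      rw [← hb1, e1.left_inv h1]
      rw [hb1]
    have hb : b ∈ (e1.symm.trans e2).source := by
      rw [OpenPartialHomeomorph.trans_source]
      refine ⟨?_, ?_⟩
      · rw [← hb1]
        exact e1.map_source h1
      · change e1.symm b ∈ e2.source
        rw [hbs]
        exact h3
    obtain ⟨d, c, i1, i2, i3⟩ := exists_over lc (π := π) (e1.symm.trans e2) (fun y hy => by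
      rw [OpenPartialHomeomorph.trans_source] at hy
      have hy1 : y ∈ e1.target := hy.1
      change e2 (e1.symm y) = π y
      have hy2 : r (e1.symm y) = y := by
        rw [h1']
        exact e1.right_inv hy1
      conv_rhs => rw [← hy2]
      rw [hπ, h3']) hb
    exact ⟨d, ⟨c, i1⟩, i2, i3⟩
  -- local constancy
  have hlocN : ∀ (c : Cub M n) (b : N), π b ∈ UU c →
      ∀ᶠ b' in 𝓝 b, σ c (sec b') = σ c (sec b) := by
    intro c b hb
    have i1 := hσ.loc c (sec b) hb
    have i2 : ∀ᶠ x' in 𝓝 (sec b), p x' ∈ UU c :=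
      hp.continuous.continuousAt.eventually (c.open_int.mem_nhds hb)
    have i3 := (i1.and i2)
    have i4 : r '' {x' | σ c x' = σ c (sec b) ∧ p x' ∈ UU c} ∈ 𝓝 (r (sec b)) :=
      hrl.isOpenMap.image_mem_nhds i3
    rw [hsec b] at i4
    refine mem_of_superset i4 ?_
    rintro _ ⟨x', ⟨j1, j2⟩, rfl⟩
    change σ c (sec (r x')) = σ c (sec b)
    rw [hinv c x' j2, j1]
  have hUU : ∀ (d : Cub N n) (c : Cub M n), Over π d c → ∀ b ∈ UU d, π b ∈ UU c := by
    intro d c hdc b hb
    exact ⟨hdc.mem hb.1, by rw [hdc.φ_eq hb.1]; exact hb.2⟩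
  have hconst : ∀ (d : Cub N n) (c : Cub M n), Over π d c → ∀ b b' : N, b ∈ UU d → b' ∈ UU d →
      σ c (sec b) = σ c (sec b') := by
    intro d c hdc b b' hb hb'
    letI : TopologicalSpace kˣ := ⊥
    haveI : DiscreteTopology kˣ := ⟨rfl⟩
    refine (preconn_int (c := d)).constant (f := fun b => σ c (sec b)) (fun x hx => ?_) hb hb'
    apply ContinuousAt.continuousWithinAt
    exact continuousAt_const.congr ((hlocN c x (hUU d c hdc x hx)).mono fun y hy => hy.symm)
  let o : Cub N n → k := fun d =>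
    if h : ∃ c, Over π d c then (((σ h.choose (sec (d.ψ 0)))⁻¹ : kˣ) : k) else 0
  have ho : Ori e (fun d : Cub N n => ∃ c, Over π d c) h2 o := by
    refine ⟨fun d hd => ?_, fun d d' hd hd' w η hη hb hs => ?_⟩
    · change (dite _ _ _) ≠ _
      rw [dif_pos hd]
      exact Units.ne_zero _
    · have hz : ∀ c : Cub N n, c.ψ 0 ∈ UU c := fun c => by
        obtain ⟨h1, h3⟩ := ctr_box (c := c) (v := 0) two_pos h02
        exact ⟨h1, by rw [h3, norm_zero]; exact two_pos⟩
      obtain ⟨h1, h3⟩ := ctr_box (c := d') hη hb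
      have h4 : d'.ψ w ∉ d'.A1 w η := notMem_A1 h1 (by rw [h3, sub_self, norm_zero]; exact hη)
      have h5 := of_notMem_A1 fun h => h4 (hs h)
      rw [sub_zero] at h5
      have h5' : d'.ψ w ∈ UU d := h5
      have h6 : d'.ψ w ∈ UU d' := ⟨h1, by rw [h3]; linarith⟩
      have h7 : Trn e h2 d d' (d'.ψ w)
          (cc e d two_pos h02 (resR subset_rfl hs n (gb e h2 d' hη hb))) :=
        ⟨w, η, hη, hb, hs, h1, by rw [h3, sub_self, norm_zero]; exact hη, rfl⟩
      have hc := hd.choose_spec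
      have hc' := hd'.choose_spec
      obtain ⟨t, ht, et⟩ := hσ.trn hd.choose hd'.choose (sec (d'.ψ w))
        (hUU _ _ hc _ h5') (hUU _ _ hc' _ h6)
      have h8 := trn_over e h2 hc hc' h5.1 h5.2 h6.1 h6.2 ht
      have h9 := trn_uniq e h2 h7 h8
      have o1 : o d = (((σ hd.choose (sec (d.ψ 0)))⁻¹ : kˣ) : k) := dif_pos hd
      have o2 : o d' = (((σ hd'.choose (sec (d'.ψ 0)))⁻¹ : kˣ) : k) := dif_pos hd'
      rw [o1, o2, h9, hconst d _ hc (d.ψ 0) (d'.ψ w) (hz d) h5',
        hconst d' _ hc' (d'.ψ 0) (d'.ψ w) (hz d') h6, et]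
      rw [← Units.val_mul]
      congr 1
      rw [mul_inv_rev, mul_assoc, inv_mul_cancel, mul_one]
  obtain ⟨x₀⟩ : Nonempty X := inferInstance
  haveI : Nonempty N := ⟨r x₀⟩
  obtain ⟨ω, hω⟩ := exists_top_ne e h2 hn locN ho
  exact exists_list hω

/-- **(A4)** for a closed topological manifold, with the monodromy homomorphism. -/
theorem chi_mfd {n : ℕ} (hn : 1 ≤ n) {M X Γ : Type} [TopologicalSpace M] [T2Space M]
    [CompactSpace M] [ChartedSpace (EuclideanSpace ℝ (Fin n)) M] [TopologicalSpace X]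
    [SimplyConnectedSpace X] [Group Γ] [MulAction Γ X] {p : X → M}
    (hp : IsQuotientCoveringMap p Γ) (k : Type) [Field k] :
    ∃ χ : Γ →* kˣ, ∀ H ≤ χ.ker, ∀ (N : Type) [MetricSpace N] [CompactSpace N] (r : X → N),
      IsQuotientCoveringMap r H →
      ∃ w : List N → k, Nrm w ∧ CocL (univ : Set N) n w ∧ ¬ ExL (univ : Set N) n w := by
  haveI : SecondCountableTopology M :=
    ChartedSpace.secondCountable_of_sigmaCompact (EuclideanSpace ℝ (Fin n)) M
  haveI : TopologicalSpace.MetrizableSpace M := inferInstance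
  letI : MetricSpace M := TopologicalSpace.metrizableSpaceMetric M
  letI : ChartedSpace (EuclideanSpace ℝ (Fin n)) X :=
    A7.pullCharts hp.isCoveringMap.isLocalHomeomorph
  haveI : LocallyPathConnectedSpace X :=
    ChartedSpace.locallyPathConnectedSpace (EuclideanSpace ℝ (Fin n)) X
  have hE : Module.finrank ℝ (EuclideanSpace ℝ (Fin n)) = n := by simp
  have lc : LocEuc M n := hE ▸ D907.cub (EuclideanSpace ℝ (Fin n)) M
  exact exists_chi hn lc hp

end Vale.Agent.P260.A
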