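import Vale.Agent.P260.H20.Defs
import Vale.Agent.P216.H311.Points

set_option linter.all false

/-!
# P260, block A: the space of invariant cocycles and presentations of the cohomology
-/

open Set Finsupp

namespace Vale.Agent.P260.A

open Vale.Agent.P216.Sl Vale.Agent.P216.PS Vale.Agent.P216

variable {k : Type} [Field k] {G : Type} [Group G]

theorem cocG_zero (i : ℕ) : CocG i (fun _ : List G => (0 : k)) :=
  ⟨fun _ _ => rfl, fun l _ => PS.dl_zero_fun l⟩

theorem cocG_add {i : ℕ} {f g : List G → k} (hf : CocG i f) (hg : CocG i g) :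
    CocG i fun l => f l + g l :=
  ⟨fun x l => by simp only [hf.1 x l, hg.1 x l], fun l hl => by
    rw [PS.dl_add, hf.2 l hl, hg.2 l hl, add_zero]⟩

theorem cocG_smul {i : ℕ} (c : k) {f : List G → k} (hf : CocG i f) :
    CocG i fun l => c * f l :=
  ⟨fun x l => by simp only [hf.1 x l], fun l hl => by
    rw [PS.dl_smul, hf.2 l hl, mul_zero]⟩

variable (k G) in
/-- The space of invariant cocycles. -/
def ZG (i : ℕ) : Submodule k (List G → k) where
  carrier := {f | CocG i f}
  add_mem' := fun hf hg => cocG_add hf hg
  zero_mem' := cocG_zero i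
  smul_mem' := fun c _ hf => cocG_smul c hf

/-- A presentation of the cohomology in degree `i`. -/
def Pres (i : ℕ) {V : Type} [AddCommGroup V] [Module k V] (π : ZG k G i →ₗ[k] V) : Prop :=
  Function.Surjective π ∧ ∀ f : ZG k G i, π f = 0 ↔ ExG i (f : List G → k)

end Vale.Agent.P260.A
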