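import Vale.Agent.P260.H15.GDual
import Vale.Agent.P260.H20.A0
import Vale.Agent.P260.H20.Pres
import Vale.Agent.P260.H388.A7
import Vale.Agent.P260.Spec
import Vale.Agent.P216.Ch2.D246.Dim

set_option linter.all false

/-!
# P260, block A8: assembly of block A
-/

open Set Finsupp

namespace Vale.Agent.P260.A

open Vale.Agent.P216.Sl Vale.Agent.P216.PS Vale.Agent.P216
open Vale.Agent.P216.N929 (Fine Coc Cy Tau)

section Lin

variable {k : Type} [Field k] {G : Type} [Group G]

variable {V W : Type} [AddCommGroup V] [Module k V] [AddCommGroup W] [Module k W]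

theorem exG_of_pres {i : ℕ} {π : ZG k G i →ₗ[k] V} (hπ : Pres i π) {f g : List G → k}
    (hf : CocG i f) (hg : CocG i g) (h : π ⟨f, hf⟩ = π ⟨g, hg⟩) : ExG i fun l => f l - g l := by
  have h1 : π (⟨f, hf⟩ - ⟨g, hg⟩) = 0 := by rw [map_sub, h, sub_self]
  exact (hπ.2 _).1 h1

theorem sub_of_pres {i : ℕ} {π : ZG k G i →ₗ[k] V} (hπ : Pres i π)
    (h : ∀ f : List G → k, CocG i f → ExG i f) : Subsingleton V := by
  refine subsingleton_of_forall_eq 0 fun v => ?_
  obtain ⟨f, rfl⟩ := hπ.1 v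
  exact (hπ.2 f).2 (h _ f.2)

theorem one_of_pres {i : ℕ} {π : ZG k G i →ₗ[k] V} (hπ : Pres i π) {ω : List G → k}
    (hω : CocG i ω) (h : ∀ f : List G → k, CocG i f → ∃ a : k, ExG i fun l => f l - a * ω l) :
    Module.Finite k V ∧ Module.finrank k V ≤ 1 := by
  have key : ∀ w : V, ∃ c : k, c • π ⟨ω, hω⟩ = w := by
    intro w
    obtain ⟨f, rfl⟩ := hπ.1 w
    obtain ⟨a, ha⟩ := h _ f.2
    refine ⟨a, ?_⟩
    rw [← map_smul, eq_comm, ← sub_eq_zero, ← map_sub]
    exact (hπ.2 _).2 ha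
  refine ⟨?_, finrank_le_one _ key⟩
  refine Module.Finite.of_surjective (LinearMap.toSpanSingleton k V (π ⟨ω, hω⟩)) fun w => ?_
  obtain ⟨c, hc⟩ := key w
  exact ⟨c, hc⟩

/-- `h_3 ≤ h_1` -/
theorem three_of_pres {N : Type} [MetricSpace N] [PreconnectedSpace N] {q : ℕ} (hq : 1 ≤ q)
    {w : List N → k} (hw0 : ¬ ExL (univ : Set N) (q + 1) w)
    (HT : ∀ ρ₁ > 0, ∃ (τ : Tau k N (q + 1) ρ₁) (y : N), ExL (univ : Set N) (q + 1) fun l =>
      τ.f (l.map fun x => (x, y)) - w l)
    {Φ : (List G → k) → List N → k} (hΦ : Cmp k G N Φ) {ω : List G → k}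
    (hω : ∀ f : List G → k, CocG (q + 1) f → ∃ a : k, ExG (q + 1) fun l => f l - a * ω l)
    {π₁ : ZG k G 1 →ₗ[k] W} (h1 : Pres 1 π₁) {π₃ : ZG k G q →ₗ[k] V} (h3 : Pres q π₃)
    [Module.Finite k W] : Module.Finite k V ∧ Module.finrank k V ≤ Module.finrank k W := by
  classical
  -- cocycles of degree one
  let b := Module.finBasis k W
  choose v hv using fun i => h1.1 (b i)
  have hspan : ∀ f : List G → k, CocG 1 f → ∃ c : Fin (Module.finrank k W) → k,
      ExG 1 fun l => f l - ∑ i, c i * (v i : List G → k) l := by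
    intro f hf
    refine ⟨fun i => b.repr (π₁ ⟨f, hf⟩) i, ?_⟩
    have e : π₁ (⟨f, hf⟩ - ∑ i, b.repr (π₁ ⟨f, hf⟩) i • v i) = 0 := by
      rw [map_sub, map_sum]
      simp only [map_smul, hv]
      rw [b.sum_repr, sub_self]
    have h := (h1.2 _).1 e
    refine exG_congr h fun l _ => ?_
    simp [Submodule.coe_sum]
  have hrank : Module.rank k V ≤ (Module.finrank k W : ℕ) := by
    refine rank_le fun s hs => ?_
    choose u hu using fun x : s => h3.1 (x : V)
    let e := s.equivFin.symm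
    refine card_le_card hq hw0 HT hΦ hω (u := fun j => (u (e j) : List G → k))
      (fun j => (u (e j)).2) (fun a ha => ?_) (v := fun i => (v i : List G → k))
      (fun i => (v i).2) hspan
    have h2 : π₃ (∑ j, a j • u (e j)) = 0 := by
      refine (h3.2 _).2 (exG_congr ha fun l _ => ?_)
      simp [Submodule.coe_sum]
    rw [map_sum] at h2
    simp only [map_smul, hu] at h2
    have h4 : LinearIndependent k fun j : Fin s.card => ((e j : s) : V) :=
      hs.comp e e.injective
    rw [Fintype.linearIndependent_iff] at h4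
    funext j
    exact h4 a h2 j
  have hfin : Module.Finite k V := by
    rw [← Module.rank_lt_aleph0_iff]
    exact hrank.trans_lt (Cardinal.natCast_lt_aleph0)
  exact ⟨hfin, Module.finrank_le_of_rank_le hrank⟩

end Lin

end Vale.Agent.P260.A
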