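import Vale.Agent.P260.H20.Pres
import Vale.Agent.P260.H20.Cover

set_option linter.all false

/-!
# P260, block A5: finiteness
-/

open Set Finsupp

namespace Vale.Agent.P260.A

open Vale.Agent.P216.Sl Vale.Agent.P216.PS Vale.Agent.P216
open Vale.Agent.P239.M (SmG CFillS)

section Small

variable {k : Type} [Field k] {G : Type} [Group G] {V : Type} [AddCommGroup V] [Module k V]

/-- evaluation on the lists `1 :: t`, `t` with entries in `R` -/
noncomputable def evR (R : Finset G) (i : ℕ) : ZG k G i →ₗ[k] ((Fin i → R) → k) where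
  toFun f t := (f : List G → k) (1 :: List.ofFn fun j => (t j : G))
  map_add' _ _ := rfl
  map_smul' _ _ := rfl

theorem evR_ker {i : ℕ} (R : Finset G) {f : ZG k G i} (hf : evR R i f = 0) (l : List G)
    (hl : l.length = i + 1) (hs : SmG R l) : (f : List G → k) l = 0 := by
  obtain ⟨x, l', rfl⟩ := List.exists_cons_of_length_eq_add_one hl
  have h1 := f.2.1 x⁻¹ (x :: l')
  rw [List.map_cons, inv_mul_cancel] at h1
  have hl' : l'.length = i := by simpa using hl
  subst hl'
  rw [← h1]
  have h2 : l'.map (x⁻¹ * ·) = List.ofFn fun j : Fin l'.length =>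
      (((fun j : Fin l'.length => (⟨x⁻¹ * l'.get j, hs x List.mem_cons_self _
        (List.mem_cons_of_mem _ (List.get_mem _ _))⟩ : R)) j : R) : G) := by
    apply List.ext_get
    · simp
    · intro n h1 h2
      simp
  rw [h2]
  exact congrFun hf _

theorem fin_aux {A B C : Type} [AddCommGroup A] [Module k A] [AddCommGroup B] [Module k B]
    [AddCommGroup C] [Module k C] [Module.Finite k B] (e : A →ₗ[k] B) (p : A →ₗ[k] C)
    (hp : Function.Surjective p) (h : ∀ a, e a = 0 → p a = 0) : Module.Finite k C := by
  have hker : LinearMap.ker e ≤ LinearMap.ker p := fun a ha => h a ha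
  have h1 : Module.Finite k (A ⧸ LinearMap.ker e) :=
    Module.Finite.equiv e.quotKerEquivRange.symm
  refine Module.Finite.of_surjective ((LinearMap.ker e).liftQ p hker) ?_
  intro v
  obtain ⟨f, rfl⟩ := hp v
  refine ⟨Submodule.Quotient.mk f, ?_⟩
  rw [Submodule.liftQ_apply]

theorem fin_of_small {i : ℕ} {π : ZG k G i →ₗ[k] V} (hπ : Pres i π) (R : Finset G)
    (hR : ∀ f : List G → k, CocG i f → (∀ l : List G, l.length = i + 1 → SmG R l → f l = 0) →
      ExG i f) : Module.Finite k V :=
  fin_aux (evR R i) π hπ.1 fun f hf => (hπ.2 f).2 (hR _ f.2 (evR_ker R hf))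

end Small

section CF

open Vale.Agent.P239 Vale.Agent.P239.M

variable {N X H : Type} [MetricSpace N] [CompactSpace N] [TopologicalSpace X]
  [ContractibleSpace X] [Group H] [MulAction H X] {r : X → N} (hr : IsQuotientCoveringMap r H)
include hr

theorem cfill_cover (k : Type*) [CommRing k] (i : ℕ) : CFillS k H i := by
  have : LocallyCompactSpace X := locallyCompact_of_cover hr
  have hm : TopologicalSpace.MetrizableSpace X := metrizable_of_cover hr
  letI : MetricSpace X := TopologicalSpace.metrizableSpaceMetric X
  have hact : CoAct H X := coAct_of_cover hr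
  have hF : FillS k X := fillS _ X
  exact cfillS _ hact hF i (psiS _ hact hF i)

theorem fg_cover : Group.FG H := by
  have : LocallyCompactSpace X := locallyCompact_of_cover hr
  exact fg_of_cover hr

end CF

end Vale.Agent.P260.A
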