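import Vale.Agent.P260.H20.A8
import Vale.Agent.P260.H20.Fin
import Mathlib.RepresentationTheory.Homological.GroupCohomology.LowDegree

set_option linter.all false

/-!
# P260, block A8: the statement of block A from its pieces
-/

open Set Finsupp

namespace Vale.Agent.P260.A

open Vale.Agent.P216.Sl Vale.Agent.P216.PS Vale.Agent.P216
open Vale.Agent.P216.N929 (Fine Coc Cy Tau)
open Vale.Agent.P239.M (SmG CFillS)

/-- Block A1. -/
def A1S : Prop := ∀ (k : Type) [Field k] {N X H : Type} [MetricSpace N] [CompactSpace N]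
    [TopologicalSpace X] [ContractibleSpace X] [Group H] [MulAction H X] (r : X → N),
    IsQuotientCoveringMap r H → ∃ Φ : (List H → k) →ₗ[k] (List N → k), Cmp k H N Φ

/-- Finiteness. -/
def FinS : Prop := ∀ (k : Type) [Field k] (H : Type) [Group H] (i : ℕ),
    (∀ j, CFillS k H j) → ∃ R : Finset H, ∀ f : List H → k, CocG i f →
      (∀ l : List H, l.length = i + 1 → SmG R l → f l = 0) → ExG i f

/-- Block A4. -/
def A4S : Prop := ∀ (q : ℕ) [Fact q.Prime] {M X Γ : Type} [TopologicalSpace M] [T2Space M]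
    [CompactSpace M] [ChartedSpace (EuclideanSpace ℝ (Fin 4)) M] [TopologicalSpace X]
    [ContractibleSpace X] [Group Γ] [MulAction Γ X] (p : X → M), IsQuotientCoveringMap p Γ →
    ∃ Γ' : Subgroup Γ, Γ'.FiniteIndex ∧ ∀ H : Subgroup Γ, H.FiniteIndex → H ≤ Γ' →
      ∀ (N : Type) [MetricSpace N] [CompactSpace N] [ConnectedSpace N]
        [ChartedSpace (EuclideanSpace ℝ (Fin 4)) N] (r : X → N), IsQuotientCoveringMap r H →
        ∃ w : List N → ZMod q, CocL (univ : Set N) 4 w ∧ ¬ ExL (univ : Set N) 4 w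

/-- Block A6. -/
def A6S : Prop := ∀ (k : Type) [Field k] (H : Type) [Group H] (i : ℕ),
    ∃ π : ZG k H i →ₗ[k] (groupCohomology (Rep.trivial k H k) i), Pres i π

theorem blockA_of (h1 : A1S) (hF : FinS) (h4 : A4S) (h6 : A6S) : BlockA := by
  intro M X Γ _ _ _ _ _ _ _ _ _ p hp q _
  obtain ⟨Γ', hΓ', hor⟩ := h4 q p hp
  refine ⟨Γ', hΓ', fun H hH hle => ?_⟩
  obtain ⟨N, _, _, _, _, r, hr⟩ := A7.exists_quot (n := 4) hp H hH
  obtain ⟨w, hw, hw0⟩ := hor H hH hle N r hr
  obtain ⟨Φ, hΦ⟩ := h1 (ZMod q) r hr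
  have hcf : ∀ j, CFillS (ZMod q) H j := fun j => cfill_cover hr (ZMod q) j
  have hE : Module.finrank ℝ (EuclideanSpace ℝ (Fin 4)) = 4 := by simp
  have hok := Ch2.ok (ZMod q)
  -- the cohomology of the group
  choose π hπ using fun i => h6 (ZMod q) H i
  have hfin : ∀ i, Module.Finite (ZMod q) (groupCohomology (Rep.trivial (ZMod q) H (ZMod q)) i) :=
    fun i => by
      obtain ⟨R, hR⟩ := hF (ZMod q) H i hcf
      exact fin_of_small (hπ i) R hR
  have hfive : ∀ f : List H → ZMod q, CocG 5 f → ExG 5 f := fun f hf =>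
    hΦ.inj 5 f hf (Ch2.D246.exL_above_mfd (E := EuclideanSpace ℝ (Fin 4)) hok hE (by norm_num)
      (by norm_num) (hΦ.coc 5 f hf))
  have hfour : ∃ ω : List H → ZMod q, CocG 4 ω ∧ ∀ f : List H → ZMod q, CocG 4 f →
      ∃ a : ZMod q, ExG 4 fun l => f l - a * ω l := by
    by_cases hall : ∀ f : List H → ZMod q, CocG 4 f → ExG 4 f
    · refine ⟨fun _ => 0, cocG_zero 4, fun f hf => ⟨0, exG_congr (hall f hf) fun l _ => ?_⟩⟩
      ring
    · push Not at hall
      obtain ⟨ω, hω, hω0⟩ := hall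
      refine ⟨ω, hω, fun f hf => ?_⟩
      obtain ⟨a, ha⟩ := Ch2.D246.exL_mul_mfd (E := EuclideanSpace ℝ (Fin 4)) hok hE (by norm_num)
        (hΦ.coc 4 ω hω) (fun h => hω0 (hΦ.inj 4 ω hω h)) (hΦ.coc 4 f hf)
      refine ⟨a, hΦ.inj 4 _ ?_ ?_⟩
      · have := cocG_add hf (cocG_smul (-a) hω)
        have e : (fun l => f l - a * ω l) = fun l => f l + -a * ω l := by
          funext l
          ring
        rw [e]
        exact this
      · have e : Φ (fun l => f l - a * ω l) = fun l => Φ f l - a * Φ ω l := by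
          have e1 : (fun l => f l - a * ω l) = f - a • ω := rfl
          rw [e1, map_sub, map_smul]
          rfl
        rw [e]
        exact ha
  obtain ⟨ω, hω, hω1⟩ := hfour
  obtain ⟨y₀⟩ : Nonempty N := inferInstance
  have hthree := three_of_pres (N := N) (q := 3) (by norm_num) hw0
    (fun ρ₁ hρ₁ => by
      obtain ⟨τ, hτ⟩ := Ch2.D246.exists_tau_mfd (E := EuclideanSpace ℝ (Fin 4)) hok hE
        (by norm_num) hw hw0 hρ₁
      exact ⟨τ, y₀, hτ y₀⟩) hΦ hω1 (hπ 1) (hπ 3)
  exact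
    { fg := fg_cover hr
      fp1 := hcf 1
      fp2 := hcf 2
      fin := fun n _ => hfin n
      five := sub_of_pres (hπ 5) hfive
      four := (one_of_pres (hπ 4) hω hω1).2
      three := hthree.2 }

end Vale.Agent.P260.A
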