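import Vale.Agent.P260.H20.A4c
import Vale.Agent.P260.H672.A1S
import Vale.Agent.P260.H458.A6
import Vale.Agent.P260.Spec4

set_option linter.all false

/-!
# P260, block PD: Poincaré duality of the finite covers, for all primes at the same time
-/

open Set Finsupp

namespace Vale.Agent.P260.A

open Vale.Agent.P216.Sl Vale.Agent.P216.PS Vale.Agent.P216
open Vale.Agent.P216.N929 (Fine Coc Cy Tau)
open Vale.Agent.P239 Vale.Agent.P239.M

section Closed

variable {N X H : Type} [MetricSpace N] [CompactSpace N] [ConnectedSpace N]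
  [ChartedSpace (EuclideanSpace ℝ (Fin 4)) N] [TopologicalSpace X] [ContractibleSpace X]
  [Group H] [MulAction H X] {r : X → N} (hr : IsQuotientCoveringMap r H)
include hr

/-- The comparison, surjective in all the degrees. -/
theorem cmp_surj (k : Type) [Field k] : ∃ Φ : (List H → k) →ₗ[k] (List N → k), Cmp k H N Φ ∧
    ∀ n (u : List N → k), CocL (univ : Set N) n u →
      ∃ f : List H → k, CocG n f ∧ ExL (univ : Set N) n fun l => u l - Φ f l := by
  have : LocallyCompactSpace X := locallyCompact_of_cover hr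
  have hm : TopologicalSpace.MetrizableSpace X := metrizable_of_cover hr
  letI : MetricSpace X := TopologicalSpace.metrizableSpaceMetric X
  have hF : FillS k X := fillS k X
  have hact := coAct_of_cover hr
  obtain ⟨γ, ε₀, -, h1, h2⟩ := H672.exists_cmp_of (k := k) (H672.cover_of hr) hF
    fun i => cfillS k hact hF i (psiS k hact hF i)
  exact ⟨H672.asmL k γ, h1, h2⟩

theorem pres_fin (k : Type) [Field k] (i : ℕ) {V : Type} [AddCommGroup V] [Module k V]
    {π : ZG k H i →ₗ[k] V} (hπ : Pres i π) : Module.Finite k V := by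
  obtain ⟨R, hR⟩ := H672.finS k H i fun j => cfill_cover hr k j
  exact fin_of_small hπ R hR

theorem five_exG (k : Type) [Field k] (f : List H → k) (hf : CocG 5 f) : ExG 5 f := by
  obtain ⟨Φ, hΦ⟩ := H672.a1s k r hr
  have hE : Module.finrank ℝ (EuclideanSpace ℝ (Fin 4)) = 4 := by simp
  exact hΦ.inj 5 f hf (Ch2.D246.exL_above_mfd (E := EuclideanSpace ℝ (Fin 4)) (Ch2.ok k) hE
    (by norm_num) (by norm_num) (hΦ.coc 5 f hf))

/-- The cohomology in degree four has dimension at most one. -/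
theorem four_exG {k : Type} [Field k] {Φ : (List H → k) →ₗ[k] (List N → k)} (hΦ : Cmp k H N Φ)
    {ω : List H → k} (hω : CocG 4 ω) (hω0 : ¬ ExG 4 ω) {f : List H → k} (hf : CocG 4 f) :
    ∃ a : k, ExG 4 fun l => f l - a * ω l := by
  have hE : Module.finrank ℝ (EuclideanSpace ℝ (Fin 4)) = 4 := by simp
  obtain ⟨a, ha⟩ := Ch2.D246.exL_mul_mfd (E := EuclideanSpace ℝ (Fin 4)) (Ch2.ok k) hE
    (by norm_num) (hΦ.coc 4 ω hω) (fun h => hω0 (hΦ.inj 4 ω hω h)) (hΦ.coc 4 f hf)
  refine ⟨a, hΦ.inj 4 _ ?_ ?_⟩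
  · have := cocG_add hf (cocG_smul (-a) hω)
    have e : (fun l => f l - a * ω l) = fun l => f l + -a * ω l := by
      funext l
      ring
    rw [e]
    exact this
  · have e : Φ (fun l => f l - a * ω l) = fun l => Φ f l - a * Φ ω l := by
      have e1 : (fun l => f l - a * ω l) = f - a • ω := rfl
      rw [e1, map_sub, map_smul]
      rfl
    rw [e]
    exact ha

theorem exists_omega {k : Type} [Field k] {Φ : (List H → k) →ₗ[k] (List N → k)}
    (hΦ : Cmp k H N Φ) : ∃ ω : List H → k, CocG 4 ω ∧ ∀ f : List H → k, CocG 4 f →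
      ∃ a : k, ExG 4 fun l => f l - a * ω l := by
  by_cases hall : ∀ f : List H → k, CocG 4 f → ExG 4 f
  · refine ⟨fun _ => 0, cocG_zero 4, fun f hf => ⟨0, exG_congr (hall f hf) fun l _ => ?_⟩⟩
    ring
  · push Not at hall
    obtain ⟨ω, hω, hω0⟩ := hall
    exact ⟨ω, hω, fun f hf => four_exG hr hΦ hω hω0 hf⟩

end Closed

section PD

variable {N X H : Type} [MetricSpace N] [CompactSpace N] [ConnectedSpace N]
  [ChartedSpace (EuclideanSpace ℝ (Fin 4)) N] [TopologicalSpace X] [ContractibleSpace X]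
  [Group H] [MulAction H X] {r : X → N} (hr : IsQuotientCoveringMap r H) (q : ℕ) [Fact q.Prime]
include hr

theorem fin4_cover : Fin4 q H := by
  choose π hπ using fun i => H458.pres (ZMod q) H i
  exact ⟨fun n _ => pres_fin hr (ZMod q) n (hπ n), sub_of_pres (hπ 5) (five_exG hr (ZMod q))⟩

theorem four_le : hd q H 4 ≤ 1 := by
  obtain ⟨Φ, hΦ⟩ := H672.a1s (ZMod q) r hr
  obtain ⟨π, hπ⟩ := H458.pres (ZMod q) H 4
  obtain ⟨ω, hω, hω1⟩ := exists_omega hr hΦ
  exact (one_of_pres hπ hω hω1).2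

/-- The oriented case. -/
theorem four_eq {w : List N → ZMod q} (hw : CocL (univ : Set N) 4 w)
    (hw0 : ¬ ExL (univ : Set N) 4 w) : hd q H 4 = 1 ∧ hd q H 3 ≤ hd q H 1 := by
  obtain ⟨Φ, hΦ, hs⟩ := cmp_surj hr (ZMod q)
  choose π hπ using fun i => H458.pres (ZMod q) H i
  obtain ⟨ω, hω, hω1⟩ := exists_omega hr hΦ
  have hE : Module.finrank ℝ (EuclideanSpace ℝ (Fin 4)) = 4 := by simp
  obtain ⟨y₀⟩ : Nonempty N := inferInstance
  have h1 : Module.Finite (ZMod q) (HH q H 1) := pres_fin hr (ZMod q) 1 (hπ 1)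
  have h4 : Module.Finite (ZMod q) (HH q H 4) := pres_fin hr (ZMod q) 4 (hπ 4)
  have hthree := three_of_pres (N := N) (q := 3) (by norm_num) hw0
    (fun ρ₁ hρ₁ => by
      obtain ⟨τ, hτ⟩ := Ch2.D246.exists_tau_mfd (E := EuclideanSpace ℝ (Fin 4)) (Ch2.ok (ZMod q))
        hE (by norm_num) hw hw0 hρ₁
      exact ⟨τ, y₀, hτ y₀⟩) hΦ hω1 (hπ 1) (hπ 3)
  refine ⟨le_antisymm (four_le hr q) ?_, hthree.2⟩
  obtain ⟨f, hf, hwf⟩ := hs 4 w hw
  have hne : π 4 ⟨f, hf⟩ ≠ 0 := fun h => by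
    have h2 : ExG 4 f := ((hπ 4).2 ⟨f, hf⟩).1 h
    refine hw0 (exL_congr (exL_add hwf (hΦ.ex 4 f h2)) fun l _ => ?_)
    ring
  have : Nontrivial (HH q H 4) := ⟨_, _, hne⟩
  exact Module.finrank_pos

end PD

theorem coprime_index {G : Type} [Group G] {q : ℕ} [hq : Fact q.Prime] (χ : G →* (ZMod q)ˣ) :
    χ.ker.Normal ∧ χ.ker.FiniteIndex ∧ χ.ker.index.Coprime q := by
  refine ⟨inferInstance, inferInstance, ?_⟩
  have h1 : χ.ker.index ∣ q - 1 := by
    rw [Subgroup.index_ker, ← ZMod.card_units q, ← Nat.card_eq_fintype_card]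
    exact χ.range.card_subgroup_dvd_card
  have h2 : (q - 1).Coprime q := by
    have := (Nat.coprime_self_add_right (m := q - 1) (n := 1)).2 (Nat.coprime_one_right _)
    rwa [Nat.sub_add_cancel hq.out.one_le] at this
  exact Nat.Coprime.coprime_dvd_left h1 h2

end Vale.Agent.P260.A

namespace Vale.Agent.P260

open Vale.Agent.P239.M (CFillS)

/-- **Block PD.** -/
theorem blockPD : BlockPD := by
  intro M X Γ _ _ _ _ _ _ _ _ _ p hp
  haveI : SecondCountableTopology M :=
    ChartedSpace.secondCountable_of_sigmaCompact (EuclideanSpace ℝ (Fin 4)) M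
  haveI : TopologicalSpace.MetrizableSpace M := inferInstance
  letI : MetricSpace M := TopologicalSpace.metrizableSpaceMetric M
  refine
    { fg := A.fg_cover hp
      fp1 := A.cfill_cover hp (ZMod 2) 1
      fp2 := A.cfill_cover hp (ZMod 2) 2
      cfz := fun H hH i => ?_
      fin4 := fun q _ H hH => ?_
      two := fun H hH => ?_
      ori := fun q _ => ?_ }
  · obtain ⟨N, _, _, _, _, r, hr⟩ := A7.exists_quot (n := 4) hp H hH
    exact A.cfill_cover hr ℤ i
  · obtain ⟨N, _, _, _, _, r, hr⟩ := A7.exists_quot (n := 4) hp H hH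
    exact A.fin4_cover hr q
  · obtain ⟨N, _, _, _, _, r, hr⟩ := A7.exists_quot (n := 4) hp H hH
    exact A.four_le hr 2
  · obtain ⟨χ, hχ⟩ := A.chi_mfd (n := 4) (by norm_num) hp (ZMod q)
    obtain ⟨h1, h2, h3⟩ := A.coprime_index χ
    refine ⟨χ.ker, h1, h2, h3, fun H hH hle => ?_⟩
    obtain ⟨N, _, _, _, _, r, hr⟩ := A7.exists_quot (n := 4) hp H hH
    obtain ⟨w, -, hw, hw0⟩ := hχ H hle N r hr
    exact A.four_eq hr q hw hw0

end Vale.Agent.P260
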