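import Vale.Agent.P260.H20.BlockA
import Vale.Agent.P260.H672.Main

set_option linter.all false

/-!
# P260, block A: the pieces A1 and the finiteness, in the form used by the assembly
-/

open Set Finsupp

namespace Vale.Agent.P260.A

open Vale.Agent.P216.Sl Vale.Agent.P216.PS Vale.Agent.P216

/-- `asm` as a linear map. -/
def asmL (k : Type) [Field k] {G N : Type} (γ : N → N → G) :
    (List G → k) →ₗ[k] (List N → k) where
  toFun := H672.asm γ
  map_add' f g := by
    funext l
    cases l <;> rfl
  map_smul' c f := by
    funext l
    cases l <;> rfl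

theorem a1S : A1S := by
  intro k _ N X H _ _ _ _ _ _ r hr
  obtain ⟨γ, h, -⟩ := H672.exists_cmp k hr
  exact ⟨asmL k γ, h⟩

theorem finS : FinS := fun k _ H _ i hC => H672.exG_of_small hC i

end Vale.Agent.P260.A
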